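import Mathlib

/-!
# P101: one-sided approximate intertwining

Elliott's intertwining argument (Rørdam, Classification of nuclear C⋆-algebras, 2.3.5): if
`j : A → R` is an injective homomorphism of separable C⋆-algebras and finite sets of `R` can be
rotated by unitaries almost commuting with finite sets of `A` almost into the image of `A`, then
`A ≅ R`.
-/

open Filter Topology

namespace Vale.P101.ZS

noncomputable section

variable {A R : Type*} [CStarAlgebra A] [CStarAlgebra R]

theorem norm_conj_unitary (u : unitary R) (x : R) :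
    ‖Unitary.conjStarAlgAut ℂ R u x‖ = ‖x‖ :=
  NonUnitalStarAlgHom.norm_map (Unitary.conjStarAlgAut ℂ R u)
    (Unitary.conjStarAlgAut ℂ R u).injective x

/-- One-sided approximate intertwining. -/
theorem exists_starAlgEquiv_of_approx [TopologicalSpace.SeparableSpace A]
    [TopologicalSpace.SeparableSpace R] (j : A →⋆ₐ[ℂ] R) (hj : Function.Injective j)
    (h : ∀ (F : Finset A) (G : Finset R) (ε : ℝ), 0 < ε → ∃ v ∈ unitary R,
      (∀ a ∈ F, ‖v * j a - j a * v‖ ≤ ε) ∧ ∀ x ∈ G, ∃ a, ‖star v * x * v - j a‖ ≤ ε) :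
    Nonempty (A ≃⋆ₐ[ℂ] R) := by
  classical
  have h' : ∀ (n : ℕ) (F : Finset A) (G : Finset R), ∃ (v : unitary R) (c : R → A),
      (∀ a ∈ F, ‖(v : R) * j a - j a * v‖ ≤ (1 / 2 : ℝ) ^ n) ∧
      ∀ x ∈ G, ‖star (v : R) * x * v - j (c x)‖ ≤ (1 / 2 : ℝ) ^ n := by
    intro n F G
    obtain ⟨v, hv, hF, hG⟩ := h F G ((1 / 2 : ℝ) ^ n) (by positivity)
    choose! c hc using hG
    exact ⟨⟨v, hv⟩, c, hF, hc⟩
  choose V C hV hC using h'
  obtain ⟨aseq, haseq⟩ := TopologicalSpace.exists_dense_seq A
  obtain ⟨xseq, hxseq⟩ := TopologicalSpace.exists_dense_seq R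
  -- the finite sets used at stage `n`
  let FF : ℕ → Finset A → Finset A := fun n S => S ∪ (Finset.range (n + 1)).image aseq
  let GG : ℕ → unitary R → Finset R := fun n w =>
    (Finset.range (n + 1)).image fun k => star (w : R) * xseq k * w
  let st : ℕ → unitary R × Finset A := fun n => Nat.rec (1, ∅)
    (fun n p => (p.1 * V n (FF n p.2) (GG n p.1),
      FF n p.2 ∪ (GG n p.1).image (C n (FF n p.2) (GG n p.1)))) n
  let F : ℕ → Finset A := fun n => FF n (st n).2
  let G : ℕ → Finset R := fun n => GG n (st n).1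
  let v : ℕ → unitary R := fun n => V n (F n) (G n)
  let φ : ℕ → A → R := fun n a => Unitary.conjStarAlgAut ℂ R (st n).1 (j a)
  have hw : ∀ n, (st (n + 1)).1 = (st n).1 * v n := fun n => rfl
  have hFS : ∀ n, (st (n + 1)).2 = F n ∪ (G n).image (C n (F n) (G n)) := fun n => rfl
  have hmono : Monotone F := monotone_nat_of_le_succ fun n => by
    intro a ha
    exact Finset.mem_union_left _ (by rw [hFS]; exact Finset.mem_union_left _ ha)
  have hnorm : ∀ n a b, dist (φ n a) (φ n b) = dist a b := fun n a b => by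
    simp only [φ, dist_eq_norm, ← map_sub, norm_conj_unitary,
      NonUnitalStarAlgHom.norm_map j hj]
  -- one step moves the relevant finite set very little
  have hstep : ∀ n, ∀ a ∈ F n, dist (φ n a) (φ (n + 1) a) ≤ (1 / 2 : ℝ) ^ n := by
    intro n a ha
    have e : φ (n + 1) a = Unitary.conjStarAlgAut ℂ R (st n).1
        (Unitary.conjStarAlgAut ℂ R (v n) (j a)) := by
      simp only [φ, hw, Unitary.conjStarAlgAut_mul_apply]
    rw [dist_comm, dist_eq_norm, e, ← map_sub, norm_conj_unitary, Unitary.conjStarAlgAut_apply]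
    calc ‖(v n : R) * j a * star (v n : R) - j a‖
        = ‖((v n : R) * j a - j a * v n) * star (v n : R)‖ := by
          rw [sub_mul, mul_assoc (j a), Unitary.mul_star_self_of_mem (v n).2, mul_one]
      _ = ‖(v n : R) * j a - j a * v n‖ :=
          CStarRing.norm_mul_mem_unitary _ (Unitary.star_mem (v n).2)
      _ ≤ _ := hV n (F n) (G n) a ha
  have hgeo : ∀ m, ∀ a ∈ F m, ∀ n, dist (φ (n + m) a) (φ (n + 1 + m) a) ≤
      (1 / 2 : ℝ) ^ m * (1 / 2 : ℝ) ^ n := by
    intro m a ha n
    rw [← pow_add, add_right_comm n 1 m, add_comm m n]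
    exact hstep (n + m) a (hmono (Nat.le_add_left m n) ha)
  -- convergence everywhere
  have hcauchy : ∀ a, CauchySeq fun n => φ n a := by
    intro a
    refine Metric.cauchySeq_iff.2 fun ε hε => ?_
    obtain ⟨_, ⟨k, rfl⟩, hk⟩ := Metric.mem_closure_iff.1 (haseq a) (ε / 3) (by linarith)
    have hkF : aseq k ∈ F k :=
      Finset.mem_union_right _ (Finset.mem_image.2 ⟨k, by simp, rfl⟩)
    have hc : CauchySeq fun n => φ (n + k) (aseq k) :=
      cauchySeq_of_le_geometric _ _ (by norm_num) (hgeo k _ hkF)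
    rw [cauchySeq_shift (u := fun n => φ n (aseq k))] at hc
    obtain ⟨N, hN⟩ := Metric.cauchySeq_iff.1 hc (ε / 3) (by linarith)
    refine ⟨N, fun p hp q hq => ?_⟩
    calc dist (φ p a) (φ q a)
        ≤ dist (φ p a) (φ p (aseq k)) + dist (φ p (aseq k)) (φ q (aseq k)) +
          dist (φ q (aseq k)) (φ q a) := dist_triangle4 _ _ _ _
      _ < ε := by
          rw [hnorm, hnorm, dist_comm (aseq k)]
          linarith [hN p hp q hq]
  choose L hL using fun a => cauchySeq_tendsto_of_complete (hcauchy a)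
  have hrw : ∀ a, ∀ n, φ n a =
      ((Unitary.conjStarAlgAut ℂ R (st n).1).toStarAlgHom.comp j) a := fun a n => rfl
  let Φ : A →⋆ₐ[ℂ] R :=
    { toFun := L
      map_one' := tendsto_nhds_unique (hL 1) (by simp [hrw])
      map_mul' := fun a b => tendsto_nhds_unique (hL (a * b))
        (((hL a).mul (hL b)).congr fun n => by simp only [φ, map_mul])
      map_zero' := tendsto_nhds_unique (hL 0) (by simp [hrw])
      map_add' := fun a b => tendsto_nhds_unique (hL (a + b))
        (((hL a).add (hL b)).congr fun n => by simp only [φ, map_add])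
      commutes' := fun c => tendsto_nhds_unique (hL (algebraMap ℂ A c))
        (by simp [hrw, AlgHomClass.commutes])
      map_star' := fun a => tendsto_nhds_unique (hL (star a))
        (by simpa [hrw, map_star] using (hL a).star) }
  have hiso : Isometry Φ := Isometry.of_dist_eq fun a b =>
    tendsto_nhds_unique ((hL a).dist (hL b)) (by simp [hnorm])
  have hsurj : Function.Surjective Φ := by
    have hcl : IsClosed (Set.range Φ) := hiso.isClosedEmbedding.isClosed_range
    intro x
    refine hcl.closure_subset_iff.2 ?_ (hxseq x)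
    rintro _ ⟨k, rfl⟩
    rw [← hcl.closure_eq, Metric.mem_closure_iff]
    intro ε hε
    obtain ⟨n, hn, hkn⟩ : ∃ n, 2 * (1 / 2 : ℝ) ^ n < ε ∧ k ≤ n := by
      obtain ⟨n, hn⟩ := exists_pow_lt_of_lt_one (half_pos hε) (by norm_num : (1 / 2 : ℝ) < 1)
      refine ⟨max n k, ?_, le_max_right _ _⟩
      have := pow_le_pow_of_le_one (by norm_num : (0 : ℝ) ≤ 1 / 2) (by norm_num) (le_max_left n k)
      linarith
    set y := star ((st n).1 : R) * xseq k * (st n).1
    have hy : y ∈ G n := Finset.mem_image.2 ⟨k, by simp [Nat.lt_succ_of_le hkn], rfl⟩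
    set c := C n (F n) (G n) y
    have hcF : c ∈ F (n + 1) := Finset.mem_union_left _
      (by rw [hFS]; exact Finset.mem_union_right _ (Finset.mem_image.2 ⟨y, hy, rfl⟩))
    refine ⟨Φ c, ⟨c, rfl⟩, ?_⟩
    have h1 : dist (xseq k) (φ (n + 1) c) ≤ (1 / 2 : ℝ) ^ n := by
      refine le_of_eq_of_le ?_ (hC n (F n) (G n) y hy)
      have e : xseq k = Unitary.conjStarAlgAut ℂ R ((st n).1 * v n)
          (star (v n : R) * y * v n) := by
        simp [y, mul_assoc, ← mul_assoc ((v n : R)), ← mul_assoc (((st n).1 : unitary R) : R)]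
      rw [dist_eq_norm, e]
      simp only [φ, hw, ← map_sub, norm_conj_unitary]
      rfl
    have h2 : dist (φ (n + 1) c) (L c) ≤ (1 / 2 : ℝ) ^ n := by
      have := dist_le_of_le_geometric_of_tendsto _ _ (by norm_num) (hgeo (n + 1) c hcF)
        ((tendsto_add_atTop_iff_nat (n + 1)).2 (hL c)) 0
      simp only [Nat.zero_add, pow_zero, mul_one] at this
      refine this.trans (le_of_eq ?_)
      rw [pow_succ]; ring
    calc dist (xseq k) (Φ c) ≤ dist (xseq k) (φ (n + 1) c) + dist (φ (n + 1) c) (L c) :=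
          dist_triangle _ _ _
      _ < ε := by linarith
  exact ⟨StarAlgEquiv.ofBijective Φ ⟨hiso.injective, hsurj⟩⟩

end

end Vale.P101.ZS
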