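import Vale.Agent.P101.Central

/-!
# P101: unitaries near almost unitary elements, maps of ultrapowers
-/

open scoped BoundedContinuousFunction
open Filter Topology

namespace Vale.P101.ZS

noncomputable section

section Polar

variable {R : Type*} [CStarAlgebra R]

theorem isUnit_of_norm_sub_one_lt {x : R} (h : ‖x - 1‖ < 1) : IsUnit x := by
  have := (Units.oneSub (1 - x) (by rwa [norm_sub_rev] at h)).isUnit
  rwa [show ((Units.oneSub (1 - x) (by rwa [norm_sub_rev] at h) : Rˣ) : R) = x from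
    sub_sub_cancel 1 x] at this

/-- An almost unitary element is near a unitary. -/
theorem exists_unitary_near (f : R) (h1 : ‖star f * f - 1‖ ≤ 1 / 2)
    (h2 : ‖f * star f - 1‖ ≤ 1 / 2) :
    ∃ u ∈ unitary R, ‖u - f‖ ≤ 2 * ‖f‖ * ‖star f * f - 1‖ := by
  set h : R := star f * f with hh
  have hsa : IsSelfAdjoint h := IsSelfAdjoint.star_mul_self f
  obtain ⟨a, ha⟩ := isUnit_of_norm_sub_one_lt (x := h) (by linarith)
  obtain ⟨b, hb⟩ := isUnit_of_norm_sub_one_lt (x := f * star f) (by linarith)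
  have hf : IsUnit f := by
    have l : (↑a⁻¹ * star f) * f = 1 := by rw [mul_assoc, ← hh, ← ha, Units.inv_mul]
    have r : f * (star f * ↑b⁻¹) = 1 := by rw [← mul_assoc, ← hb, Units.mul_inv]
    exact ⟨⟨f, _, r, by rw [← left_inv_eq_right_inv l r]; exact l⟩, rfl⟩
  -- the spectrum lies near one
  have hdist : ∀ t ∈ spectrum ℝ h, |t - 1| ≤ ‖h - 1‖ := fun t ht => by
    have := norm_apply_le_norm_cfc (fun s : ℝ => s - 1) h ht (by fun_prop) hsa
    rwa [cfc_sub _ _ h (by fun_prop) (by fun_prop), cfc_id' ℝ h hsa, cfc_const_one ℝ h hsa,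
      Real.norm_eq_abs] at this
  have hpos : ∀ t ∈ spectrum ℝ h, 1 / 2 ≤ t := fun t ht => by
    have := abs_le.1 ((hdist t ht).trans h1)
    linarith
  have hcont : ContinuousOn (fun t : ℝ => (Real.sqrt t)⁻¹) (spectrum ℝ h) :=
    Real.continuous_sqrt.continuousOn.inv₀ fun t ht =>
      (Real.sqrt_pos.2 (by linarith [hpos t ht])).ne'
  set c : R := cfc (fun t : ℝ => (Real.sqrt t)⁻¹) h with hcdef
  have hcsa : IsSelfAdjoint c := cfc_predicate _ h
  have hchc : c * h * c = 1 := by
    calc c * h * c = cfc (fun t : ℝ => (Real.sqrt t)⁻¹ * t * (Real.sqrt t)⁻¹) h := by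
          rw [cfc_mul (fun t : ℝ => (Real.sqrt t)⁻¹ * t) (fun t : ℝ => (Real.sqrt t)⁻¹) h
              (hcont.mul continuousOn_id) hcont,
            cfc_mul (fun t : ℝ => (Real.sqrt t)⁻¹) (fun t : ℝ => t) h hcont (by fun_prop),
            cfc_id' ℝ h hsa]
      _ = cfc (fun _ : ℝ => (1 : ℝ)) h := cfc_congr fun t ht => by
          have ht0 : 0 < t := by linarith [hpos t ht]
          have hs := Real.mul_self_sqrt ht0.le
          have : Real.sqrt t ≠ 0 := (Real.sqrt_pos.2 ht0).ne'
          field_simp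
          linarith
      _ = 1 := cfc_const_one ℝ h hsa
  have hcu : IsUnit c := ⟨⟨c, h * c, by rwa [← mul_assoc],
    by rw [← left_inv_eq_right_inv (a := c) (b := c * h) (c := h * c) hchc
        (by rwa [← mul_assoc])]; exact hchc⟩, rfl⟩
  have hu : star (f * c) * (f * c) = 1 := by
    rw [star_mul, hcsa.star_eq, mul_assoc, ← mul_assoc (star f), ← hh, ← mul_assoc, hchc]
  refine ⟨f * c, (hf.mul hcu).mem_unitary_of_star_mul_self hu, ?_⟩
  have hc1 : ‖c - 1‖ ≤ 2 * ‖h - 1‖ := by
    rw [hcdef, ← cfc_const_one ℝ h hsa, ← cfc_sub _ _ h hcont (by fun_prop)]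
    refine norm_cfc_le (by positivity) fun t ht => ?_
    rw [cfc_const_one ℝ h hsa, Real.norm_eq_abs]
    have ht0 := hpos t ht
    have hs : 1 / 2 ≤ Real.sqrt t := Real.le_sqrt_of_sq_le (by linarith)
    have hm := Real.mul_self_sqrt (show 0 ≤ t by linarith)
    have hd := abs_le.1 (hdist t ht)
    rw [abs_le]
    constructor
    · rw [le_sub_iff_add_le, inv_eq_one_div, le_div_iff₀ (by linarith)]
      nlinarith [norm_nonneg (h - 1)]
    · rw [sub_le_iff_le_add, inv_eq_one_div, div_le_iff₀ (by linarith)]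
      nlinarith [norm_nonneg (h - 1)]
  calc ‖f * c - f‖ = ‖f * (c - 1)‖ := by rw [mul_sub, mul_one]
    _ ≤ ‖f‖ * ‖c - 1‖ := norm_mul_le _ _
    _ ≤ ‖f‖ * (2 * ‖h - 1‖) := mul_le_mul_of_nonneg_left hc1 (norm_nonneg _)
    _ = _ := by ring

end Polar

section Map

variable {A R : Type*} [CStarAlgebra A] [CStarAlgebra R] (j : A →⋆ₐ[ℂ] R) (ω : Ultrafilter ℕ)

/-- A homomorphism applied to bounded sequences. -/
def seqMap : (ℕ →ᵇ A) →⋆ₐ[ℂ] (ℕ →ᵇ R) where
  toFun f := BoundedContinuousFunction.ofNormedAddCommGroup (fun n => j (f n))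
    continuous_of_discreteTopology ‖f‖ fun n =>
      (NonUnitalStarAlgHom.norm_apply_le j (f n)).trans (f.norm_coe_le_norm n)
  map_one' := by ext n; simp
  map_mul' f g := by ext n; simp
  map_zero' := by ext n; simp
  map_add' f g := by ext n; simp
  commutes' c := by
    ext n
    show j (algebraMap ℂ (ℕ →ᵇ A) c n) = algebraMap ℂ (ℕ →ᵇ R) c n
    exact AlgHomClass.commutes j c
  map_star' f := by ext n; simp [map_star]

theorem seqMap_apply (f : ℕ →ᵇ A) (n : ℕ) : seqMap j f n = j (f n) := rfl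

/-- A homomorphism induces one of the ultrapowers. -/
theorem exists_ultrapower_map : ∃ J : Ultrapower A ω →⋆ₐ[ℂ] Ultrapower R ω,
    ∀ f, J (cls ω f) = cls ω (seqMap j f) := by
  refine exists_desc (clsStar ω) (cls_surjective ω) ((clsStar ω).comp (seqMap j)) fun f hf => ?_
  rw [clsStar_apply, ← map_zero (cls ω), cls_eq_cls, sub_zero, mem_nullSeq] at hf
  show cls ω (seqMap j f) = 0
  rw [← map_zero (cls ω), cls_eq_cls, sub_zero, mem_nullSeq]
  exact squeeze_zero (fun n => norm_nonneg _)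
    (fun n => NonUnitalStarAlgHom.norm_apply_le j (f n)) hf

/-- The constant sequences as a homomorphism. -/
def constHom : A →⋆ₐ[ℂ] Ultrapower A ω where
  toFun a := constSeq ω a
  map_one' := map_one (cls ω)
  map_mul' a b := by
    rw [constSeq, constSeq, constSeq, ← map_mul]
    rfl
  map_zero' := map_zero (cls ω)
  map_add' a b := by
    rw [constSeq, constSeq, constSeq, ← map_add]
    rfl
  commutes' c := by
    rw [← AlgHomClass.commutes (cls (A := A) ω) c]
    rfl
  map_star' a := by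
    rw [constSeq, constSeq, star_cls]
    rfl

theorem constHom_apply (a : A) : constHom ω a = constSeq ω a := rfl

end Map

end

end Vale.P101.ZS
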