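import Vale.Agent.P101.ZStab.Pins
import Vale.Agent.P101.ZStab.Absorb.Lift
import Vale.Agent.P101.ZStab.Absorb.Intertwine

/-!
# P101: an algebra with central homomorphisms of all stages absorbs

Let `R` be generated by commuting copies of `A` and of `B`, where `B` has a tower with almost
flipped stages and every stage maps unitally into `F_ω(A)`.  The universal property turns the flip
into a unitary of `R_ω` which commutes with `A` and rotates the copy of a finite part of `B` almost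
into `A_ω`; one-sided intertwining gives `A ≅ R`.
-/

open scoped Kronecker Matrix.Norms.L2Operator BoundedContinuousFunction
open Filter Topology

namespace Vale.P101.ZS

noncomputable section

namespace Absorb

theorem isClosed_DD (P Q : ℕ) : IsClosed (DD P Q : Set C(Set.Icc (0 : ℝ) 1, Mat P Q)) := by
  let L : Matrix (Fin P) (Fin P) ℂ →ₗ[ℂ] Mat P Q :=
    { toFun := fun X => X ⊗ₖ (1 : Matrix (Fin Q) (Fin Q) ℂ)
      map_add' := fun X Y => Matrix.add_kronecker X Y _
      map_smul' := fun c X => Matrix.smul_kronecker c X _ }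
  let L' : Matrix (Fin Q) (Fin Q) ℂ →ₗ[ℂ] Mat P Q :=
    { toFun := fun Y => (1 : Matrix (Fin P) (Fin P) ℂ) ⊗ₖ Y
      map_add' := fun X Y => Matrix.kronecker_add _ X Y
      map_smul' := fun c X => Matrix.kronecker_smul c _ X }
  have h : (DD P Q : Set C(Set.Icc (0 : ℝ) 1, Mat P Q)) =
      (fun f => f 0) ⁻¹' (LinearMap.range L : Set (Mat P Q)) ∩
        (fun f => f 1) ⁻¹' (LinearMap.range L' : Set (Mat P Q)) := by
    ext f
    exact and_congr (exists_congr fun X => eq_comm) (exists_congr fun Y => eq_comm)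
  rw [h]
  exact ((LinearMap.range L).closed_of_finiteDimensional.preimage (continuous_eval_const _)).inter
    ((LinearMap.range L').closed_of_finiteDimensional.preimage (continuous_eval_const _))

theorem isClosed_DD2 (P Q : ℕ) : IsClosed (DD2 P Q : Set C(II × II, Mat2 P Q)) := by
  have hc : ∀ (x : II × II) (c : Mat2 P Q),
      IsClosed {f : C(II × II, Mat2 P Q) | Commute (f x) c} := fun x c =>
    isClosed_eq ((continuous_eval_const x).mul continuous_const)
      (continuous_const.mul (continuous_eval_const x))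
  show IsClosed {f : C(II × II, Mat2 P Q) | _ ∧ _ ∧ _ ∧ _}
  simp only [Set.ofPred_and, Set.ofPred_forall]
  exact (isClosed_iInter fun _ => isClosed_iInter fun _ => hc _ _).inter
    ((isClosed_iInter fun _ => isClosed_iInter fun _ => hc _ _).inter
      ((isClosed_iInter fun _ => isClosed_iInter fun _ => hc _ _).inter
        (isClosed_iInter fun _ => isClosed_iInter fun _ => hc _ _)))

theorem inc1_mem {P Q : ℕ} (f : DD P Q) : inc1 f ∈ DD2 P Q := by
  obtain ⟨⟨X, hX⟩, Y, hY⟩ := f.2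
  refine ⟨fun t E => ?_, fun t E => ?_, fun s E => ?_, fun s E => ?_⟩ <;>
    simp [inc1, Commute, SemiconjBy, hX, hY, ← Matrix.mul_kronecker_mul]

theorem inc2_mem {P Q : ℕ} (f : DD P Q) : inc2 f ∈ DD2 P Q := by
  obtain ⟨⟨X, hX⟩, Y, hY⟩ := f.2
  refine ⟨fun t E => ?_, fun t E => ?_, fun s E => ?_, fun s E => ?_⟩ <;>
    simp [inc2, Commute, SemiconjBy, hX, hY, ← Matrix.mul_kronecker_mul]

theorem tendsto_of_cls_eq {R : Type*} [CStarAlgebra R] {ω : Ultrafilter ℕ} {a b : ℕ →ᵇ R}
    (h : cls ω a = cls ω b) : Tendsto (fun n => ‖a n - b n‖) ω (𝓝 0) := by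
  simpa using mem_nullSeq.1 ((cls_eq_cls ω).1 h)

theorem isSeparable_range_hom {D E : Type*} [CStarAlgebra D] [CStarAlgebra E]
    [TopologicalSpace.SeparableSpace D] (φ : D →⋆ₐ[ℂ] E) :
    TopologicalSpace.IsSeparable (Set.range φ) :=
  TopologicalSpace.isSeparable_range (AddMonoidHomClass.continuous_of_bound φ 1 fun a => by
    rw [one_mul]; exact NonUnitalStarAlgHom.norm_apply_le φ a)

theorem separableSpace_tower {B : Type} [CStarAlgebra B] (T : Tower B) :
    TopologicalSpace.SeparableSpace B := by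
  rw [← TopologicalSpace.isSeparable_univ_iff, ← T.dense.closure_eq]
  refine (TopologicalSpace.IsSeparable.iUnion fun n => ?_).closure
  have := isClosed_DD (T.P n) (T.P n + 1)
  letI : CStarAlgebra (DD (T.P n) (T.P n + 1)) := StarSubalgebra.cstarAlgebra _
  exact isSeparable_range_hom (T.emb n)

theorem rot_est {P Q : ℕ} {Z : Type*} [CStarAlgebra Z] (π : DD2 P Q →⋆ₐ[ℂ] Z) (u G1 G2 : DD2 P Q)
    (X Y : Z) (δ : ℝ) (h1 : π G1 = X) (h2 : π G2 = Y)
    (h : ‖u.1 * G1.1 * star u.1 - G2.1‖ ≤ δ) : ‖π u * X * star (π u) - Y‖ ≤ δ := by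
  have := isClosed_DD2 P Q
  letI : CStarAlgebra (DD2 P Q) := StarSubalgebra.cstarAlgebra _
  rw [← h1, ← h2, ← map_star, ← map_mul, ← map_mul, ← map_sub]
  exact (NonUnitalStarAlgHom.norm_apply_le π _).trans h

theorem conj_est {Z : Type*} [CStarAlgebra Z] {v X Y b : Z} {δ : ℝ} (hv : v ∈ unitary Z)
    (h1 : ‖v * X * star v - Y‖ ≤ δ / 2) (h2 : ‖b - Y‖ ≤ δ / 2) :
    ‖star v * b * v - X‖ ≤ δ := by
  have hvv : star v * v = 1 := (Unitary.mem_iff.1 hv).1
  have hid : star v * b * v - X = star v * ((b - Y) - (v * X * star v - Y)) * v := by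
    have e : star v * (v * X * star v) * v = X := by
      rw [← mul_assoc, ← mul_assoc, hvv, one_mul, mul_assoc, hvv, mul_one]
    rw [sub_sub_sub_cancel_right, mul_sub, sub_mul, e]
  rw [hid, CStarRing.norm_mul_mem_unitary _ hv,
    CStarRing.norm_mem_unitary_mul _ (Unitary.star_mem hv)]
  exact (norm_sub_le _ _).trans (by linarith)

/-- The flip unitaries, pushed to `R_ω`. -/
theorem exists_rot (hU : UnivStmt) {A B R : Type} [CStarAlgebra A] [CStarAlgebra B]
    [CStarAlgebra R] (ω : Ultrafilter ℕ) (T : Tower B)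
    (hσ : ∀ m, Nonempty (DD (T.P m) (T.P m + 1) →⋆ₐ[ℂ] FOmega A ω))
    (ιA : A →⋆ₐ[ℂ] R) (ιB : B →⋆ₐ[ℂ] R) (hcomm : ∀ a b, Commute (ιA a) (ιB b))
    (J : Ultrapower A ω →⋆ₐ[ℂ] Ultrapower R ω) (hJ : ∀ f, J (cls ω f) = cls ω (seqMap ιA f))
    (F : Finset B) (δ : ℝ) (hδ : 0 < δ) :
    ∃ v ∈ unitary (Ultrapower R ω), (∀ a, Commute (constHom ω (ιA a)) v) ∧
      ∀ b ∈ F, ∃ y, ‖star v * constHom ω (ιB b) * v - J y‖ ≤ δ := by
  classical
  -- approximants in one stage
  have happ : ∀ b : B, ∃ n, ∃ f, ‖T.emb n f - b‖ ≤ δ / 2 := fun b => by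
    obtain ⟨_, hx, hd⟩ := Metric.mem_closure_iff.1 (T.dense b) (δ / 2) (half_pos hδ)
    obtain ⟨n, f, rfl⟩ := Set.mem_iUnion.1 hx
    exact ⟨n, f, by rw [← dist_eq_norm, dist_comm]; exact hd.le⟩
  choose N f hf using happ
  set n := F.sup N with hn
  have hup : ∀ b ∈ F, ∃ f', T.emb n f' = T.emb (N b) (f b) := fun b hb =>
    T.mono _ _ (Finset.le_sup hb) ⟨f b, rfl⟩
  choose! f' hf' using hup
  obtain ⟨m, -, u, hu, hflip⟩ := T.flip n (F.image f') (δ / 2) (half_pos hδ)
  obtain ⟨σ⟩ := hσ m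
  -- the relative commutant of `A`
  let E : StarSubalgebra ℂ (Ultrapower R ω) :=
    StarSubalgebra.centralizer ℂ (Set.range fun a => constHom ω (ιA a))
  have memE : ∀ {z : Ultrapower R ω}, (∀ a, Commute (constHom ω (ιA a)) z) → z ∈ E := by
    intro z hz
    rw [StarSubalgebra.mem_centralizer_iff]
    rintro _ ⟨a, rfl⟩
    exact ⟨hz a, by rw [← map_star, ← map_star]; exact hz (star a)⟩
  have : IsClosed (E : Set (Ultrapower R ω)) := by
    rw [StarSubalgebra.coe_centralizer]
    exact Set.isClosed_centralizer _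
  letI : CStarAlgebra E := StarSubalgebra.cstarAlgebra _
  have hconst : ∀ a, constHom ω (ιA a) = J (constSeq ω a) := fun a => by
    rw [hJ]; rfl
  let incl : FOmega A ω →⋆ₐ[ℂ] Ultrapower A ω := (Central A ω).subtype
  let ρ₁ : DD (T.P m) (T.P m + 1) →⋆ₐ[ℂ] E :=
    ((J.comp incl).comp σ).codRestrict E fun g => memE fun a => by
      rw [hconst]
      exact ((mem_central ω).1 (show incl (σ g) ∈ Central A ω from (σ g).2) a).map J
  let ρ₂ : DD (T.P m) (T.P m + 1) →⋆ₐ[ℂ] E :=
    (((constHom ω).comp ιB).comp (T.emb m)).codRestrict E fun g => memE fun a =>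
      (hcomm a (T.emb m g)).map (constHom ω)
  have hρ : ∀ g g', Commute (ρ₁ g) (ρ₂ g') := fun g g' => by
    refine Subtype.ext ?_
    show J (incl (σ g)) * constHom ω (ιB (T.emb m g')) =
      constHom ω (ιB (T.emb m g')) * J (incl (σ g))
    obtain ⟨s, hs⟩ := cls_surjective ω (incl (σ g))
    rw [← hs, hJ, constHom_apply, constSeq, ← map_mul, ← map_mul]
    congr 1
    ext k
    exact hcomm (s k) (T.emb m g')
  obtain ⟨k, -, hPm⟩ := T.pow m
  obtain ⟨π, hπ⟩ := hU (T.P m) (T.P m + 1) (by rw [hPm]; positivity) (by omega) E ρ₁ ρ₂ hρ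
  have := isClosed_DD2 (T.P m) (T.P m + 1)
  letI : CStarAlgebra (DD2 (T.P m) (T.P m + 1)) := StarSubalgebra.cstarAlgebra _
  have huu : u ∈ unitary (DD2 (T.P m) (T.P m + 1)) :=
    Unitary.mem_iff.2 ⟨Subtype.ext (Unitary.mem_iff.1 hu).1, Subtype.ext (Unitary.mem_iff.1 hu).2⟩
  let π' : DD2 (T.P m) (T.P m + 1) →⋆ₐ[ℂ] Ultrapower R ω := E.subtype.comp π
  have hv : π' u ∈ unitary (Ultrapower R ω) := Unitary.map_mem π' huu
  refine ⟨π' u, hv, fun a => ((StarSubalgebra.mem_centralizer_iff ℂ).1 (π u).2 _ ⟨a, rfl⟩).1,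
    fun b hb => ?_⟩
  obtain ⟨g, hg, hg'⟩ := hflip _ (Finset.mem_image_of_mem f' hb)
  let G1 : DD2 (T.P m) (T.P m + 1) := ⟨inc1 g, inc1_mem g⟩
  let G2 : DD2 (T.P m) (T.P m + 1) := ⟨inc2 g, inc2_mem g⟩
  refine ⟨incl (σ g), conj_est hv (rot_est π' u G1 G2 _ (constHom ω (ιB (T.emb m g))) (δ / 2) ?_ ?_ hg') ?_⟩
  · exact congrArg Subtype.val ((hπ g G1).1 rfl)
  · exact congrArg Subtype.val ((hπ g G2).2 rfl)
  · rw [hg, hf' b hb]
    refine le_trans ?_ (le_of_eq_of_le (norm_sub_rev _ _) (hf b))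
    rw [← map_sub, ← map_sub]
    exact (NonUnitalStarAlgHom.norm_apply_le (constHom (A := R) ω) _).trans
      (NonUnitalStarAlgHom.norm_apply_le ιB _)

end Absorb

open Absorb in
/-- The absorption theorem for an algebra generated by commuting copies of `A` and `B`. -/
theorem absorb_core (hU : UnivStmt) {A : Type} [CStarAlgebra A] [TopologicalSpace.SeparableSpace A]
    (ω : Ultrafilter ℕ) {B : Type} [CStarAlgebra B] (T : Tower B)
    (hσ : ∀ m, Nonempty (DD (T.P m) (T.P m + 1) →⋆ₐ[ℂ] FOmega A ω))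
    {R : Type} [CStarAlgebra R] (ιA : A →⋆ₐ[ℂ] R) (ιB : B →⋆ₐ[ℂ] R)
    (hA : Function.Injective ιA) (hcomm : ∀ a b, Commute (ιA a) (ιB b))
    (hgen : Dense ((StarAlgebra.adjoin ℂ (Set.range ιA ∪ Set.range ιB) : StarSubalgebra ℂ R) :
      Set R)) :
    Nonempty (A ≃⋆ₐ[ℂ] R) := by
  classical
  have := separableSpace_tower T
  -- separability
  have : TopologicalSpace.SeparableSpace R := by
    rw [← TopologicalSpace.isSeparable_univ_iff, ← hgen.closure_eq]
    refine TopologicalSpace.IsSeparable.closure ?_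
    obtain ⟨c, hc, hcd⟩ := (isSeparable_range_hom ιA).union (isSeparable_range_hom ιB)
    refine ((isSeparable_adjoin hc).closure).mono ?_
    have : ((StarAlgebra.adjoin ℂ c).topologicalClosure : Set R) =
        closure (StarAlgebra.adjoin ℂ c : Set R) := StarSubalgebra.topologicalClosure_coe _
    rw [← this]
    refine SetLike.coe_subset_coe.2 (StarAlgebra.adjoin_le (hcd.trans ?_))
    rw [this]
    exact closure_mono (StarAlgebra.subset_adjoin ℂ c)
  obtain ⟨J, hJ⟩ := exists_ultrapower_map ιA ω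
  -- one unitary for every finite part of `B` and every tolerance
  choose v hv hvA hvB using fun i : Finset B × ℕ =>
    exists_rot hU ω T hσ ιA ιB hcomm J hJ i.1 (1 / ((i.2 : ℝ) + 1)) (by positivity)
  let c : R →⋆ₐ[ℂ] Ultrapower R ω := constHom ω
  let Φ : Finset B × ℕ → R → Ultrapower R ω := fun i x => star (v i) * c x * v i
  have hΦn : ∀ i x, ‖Φ i x‖ ≤ ‖x‖ := fun i x => by
    rw [CStarRing.norm_mul_mem_unitary _ (hv i),
      CStarRing.norm_mem_unitary_mul _ (Unitary.star_mem (hv i))]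
    exact NonUnitalStarAlgHom.norm_apply_le c x
  let Good : R → Prop := fun x => ∀ ε : ℝ, 0 < ε → ∀ᶠ i in atTop, ∃ y, ‖Φ i x - J y‖ ≤ ε
  have hgenA : ∀ a, Good (ιA a) := fun a ε hε => Eventually.of_forall fun i => by
    refine ⟨constSeq ω a, ?_⟩
    rw [show Φ i (ιA a) = c (ιA a) by
      simp only [Φ]
      rw [mul_assoc, (hvA i a).eq, ← mul_assoc, (Unitary.mem_iff.1 (hv i)).1, one_mul], hJ]
    show ‖constSeq ω (ιA a) - cls ω (seqMap ιA (BoundedContinuousFunction.const ℕ a))‖ ≤ ε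
    rw [show seqMap ιA (BoundedContinuousFunction.const ℕ a) =
      BoundedContinuousFunction.const ℕ (ιA a) from rfl, sub_self, norm_zero]
    exact hε.le
  have hgenB : ∀ b, Good (ιB b) := fun b ε hε => by
    obtain ⟨K, hK⟩ := exists_nat_one_div_lt hε
    filter_upwards [eventually_ge_atTop (({b}, K) : Finset B × ℕ)] with i hi
    obtain ⟨y, hy⟩ := hvB i b (hi.1 (Finset.mem_singleton_self b))
    refine ⟨y, hy.trans (le_trans ?_ hK.le)⟩
    have h2 : (K : ℝ) ≤ i.2 := Nat.cast_le.2 hi.2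
    gcongr
  have hmul : ∀ x y, Good x → Good y → Good (x * y) := by
    intro x y hx hy ε hε
    set η := min 1 (ε / (‖x‖ + ‖y‖ + 1))
    have hη : 0 < η := lt_min one_pos (by positivity)
    filter_upwards [hx η hη, hy η hη] with i ⟨p, hp⟩ ⟨q, hq⟩
    refine ⟨p * q, ?_⟩
    have e : Φ i (x * y) = Φ i x * Φ i y := by
      simp only [Φ, map_mul, mul_assoc]
      rw [← mul_assoc (v i) (star (v i)), (Unitary.mem_iff.1 (hv i)).2, one_mul]
    have hp' : ‖J p‖ ≤ ‖x‖ + η := by
      linarith [norm_le_insert (Φ i x) (J p), hΦn i x]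
    calc ‖Φ i (x * y) - J (p * q)‖
        = ‖(Φ i x - J p) * Φ i y + J p * (Φ i y - J q)‖ := by
          rw [e, map_mul]; congr 1; noncomm_ring
      _ ≤ η * ‖y‖ + (‖x‖ + η) * η := by
          refine (norm_add_le _ _).trans (add_le_add ?_ ?_)
          · exact (norm_mul_le _ _).trans (mul_le_mul hp (hΦn i y) (norm_nonneg _) hη.le)
          · exact (norm_mul_le _ _).trans (mul_le_mul hp' hq (norm_nonneg _) (by positivity))
      _ ≤ η * (‖x‖ + ‖y‖ + 1) := by
          nlinarith [min_le_left (1 : ℝ) (ε / (‖x‖ + ‖y‖ + 1)), hη]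
      _ ≤ ε := by
          rw [← le_div_iff₀ (by positivity)]
          exact min_le_right _ _
  have hgood : ∀ x, Good x := by
    intro x ε hε
    obtain ⟨x', hx', hd⟩ := Metric.mem_closure_iff.1 (hgen x) (ε / 2) (half_pos hε)
    have hx'g : Good x' := by
      clear hd
      induction hx' using StarAlgebra.adjoin_induction with
      | mem z hz =>
        rcases hz with ⟨a, rfl⟩ | ⟨b, rfl⟩
        · exact hgenA a
        · exact hgenB b
      | algebraMap r =>
        have := hgenA (algebraMap ℂ A r)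
        rwa [AlgHomClass.commutes] at this
      | add z w _ _ hz hw =>
        intro η hη
        filter_upwards [hz (η / 2) (half_pos hη), hw (η / 2) (half_pos hη)] with i ⟨p, hp⟩ ⟨q, hq⟩
        refine ⟨p + q, ?_⟩
        rw [show Φ i (z + w) - J (p + q) = (Φ i z - J p) + (Φ i w - J q) by
          simp only [Φ, map_add, mul_add, add_mul]; abel]
        linarith [norm_add_le (Φ i z - J p) (Φ i w - J q)]
      | mul z w _ _ hz hw => exact hmul z w hz hw
      | star z _ hz =>
        intro η hη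
        filter_upwards [hz η hη] with i ⟨p, hp⟩
        refine ⟨star p, ?_⟩
        rw [show Φ i (star z) - J (star p) = star (Φ i z - J p) by
          simp only [Φ, map_star, star_sub, star_mul, star_star, mul_assoc], norm_star]
        exact hp
    filter_upwards [hx'g (ε / 2) (half_pos hε)] with i ⟨p, hp⟩
    refine ⟨p, ?_⟩
    have h2 : ‖Φ i x - Φ i x'‖ ≤ ε / 2 := by
      rw [show Φ i x - Φ i x' = Φ i (x - x') by simp only [Φ, map_sub, mul_sub, sub_mul]]
      exact (hΦn i _).trans (by rw [← dist_eq_norm]; exact hd.le)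
    linarith [norm_sub_le_norm_sub_add_norm_sub (Φ i x) (Φ i x') (J p)]
  -- the hypothesis of the intertwining
  refine exists_starAlgEquiv_of_approx ιA hA fun F G ε hε => ?_
  obtain ⟨i, hi⟩ := ((eventually_all_finset G).2 fun x _ =>
    hgood x (ε / 4) (by linarith)).exists
  obtain ⟨f, hf⟩ := cls_surjective ω (v i)
  -- unitary representatives
  have hf1 : Tendsto (fun n => ‖star (f n) * f n - 1‖) ω (𝓝 0) :=
    tendsto_of_cls_eq (a := star f * f) (b := 1)
      (by rw [map_mul, map_one, ← star_cls, hf, (Unitary.mem_iff.1 (hv i)).1])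
  have hf2 : Tendsto (fun n => ‖f n * star (f n) - 1‖) ω (𝓝 0) :=
    tendsto_of_cls_eq (a := f * star f) (b := 1)
      (by rw [map_mul, map_one, ← star_cls, hf, (Unitary.mem_iff.1 (hv i)).2])
  have hex : ∀ n, ∃ u ∈ unitary R, ‖star (f n) * f n - 1‖ ≤ 1 / 2 →
      ‖f n * star (f n) - 1‖ ≤ 1 / 2 → ‖u - f n‖ ≤ 2 * ‖f n‖ * ‖star (f n) * f n - 1‖ := by
    intro n
    by_cases h : ‖star (f n) * f n - 1‖ ≤ 1 / 2 ∧ ‖f n * star (f n) - 1‖ ≤ 1 / 2
    · obtain ⟨u, hu, hu'⟩ := exists_unitary_near (f n) h.1 h.2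
      exact ⟨u, hu, fun _ _ => hu'⟩
    · exact ⟨1, Submonoid.one_mem _, fun h1 h2 => absurd ⟨h1, h2⟩ h⟩
  choose U hU1 hU2 using hex
  have hd : Tendsto (fun n => ‖U n - f n‖) ω (𝓝 0) := by
    refine squeeze_zero' (Eventually.of_forall fun n => norm_nonneg _) ?_
      (by simpa using hf1.const_mul (2 * ‖f‖))
    filter_upwards [hf1.eventually (eventually_le_nhds (by norm_num : (0 : ℝ) < 1 / 2)),
      hf2.eventually (eventually_le_nhds (by norm_num : (0 : ℝ) < 1 / 2))] with n h1 h2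
    refine (hU2 n h1 h2).trans ?_
    gcongr
    exact f.norm_coe_le_norm n
  have hcA : ∀ a, ∀ᶠ n in (ω : Filter ℕ), ‖U n * ιA a - ιA a * U n‖ ≤ ε := fun a => by
    have h0 : Tendsto (fun n => ‖f n * ιA a - ιA a * f n‖) ω (𝓝 0) :=
      tendsto_of_commute_cls ω (f := f) (g := BoundedContinuousFunction.const ℕ (ιA a))
        (by rw [hf]; exact (hvA i a).symm)
    have h1 : Tendsto (fun n => ‖f n * ιA a - ιA a * f n‖ + ‖U n - f n‖ * (2 * ‖ιA a‖)) ω (𝓝 0) :=
      by simpa using h0.add (hd.mul_const (2 * ‖ιA a‖))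
    filter_upwards [h1.eventually (eventually_le_nhds hε)] with n hn
    refine le_trans ?_ hn
    calc ‖U n * ιA a - ιA a * U n‖
        = ‖(f n * ιA a - ιA a * f n) + ((U n - f n) * ιA a - ιA a * (U n - f n))‖ := by
          congr 1; noncomm_ring
      _ ≤ _ := by
          refine (norm_add_le _ _).trans (add_le_add le_rfl ((norm_sub_le _ _).trans ?_))
          linarith [norm_mul_le (U n - f n) (ιA a), norm_mul_le (ιA a) (U n - f n)]
  have hcG : ∀ x ∈ G, ∀ᶠ n in (ω : Filter ℕ), ∃ a, ‖star (U n) * x * U n - ιA a‖ ≤ ε := by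
    intro x hx
    obtain ⟨y, hy⟩ := hi x hx
    obtain ⟨g, rfl⟩ := cls_surjective ω y
    have hlim : limNorm ω (star f * BoundedContinuousFunction.const ℕ x * f - seqMap ιA g) ≤
        ε / 4 := by
      rw [← norm_cls, map_sub, map_mul, map_mul, ← star_cls, hf, ← hJ]
      exact hy
    have h1 : Tendsto (fun n => ‖U n - f n‖ * ‖x‖ * (‖U n - f n‖ + 2 * ‖f‖)) ω (𝓝 0) := by
      simpa using (hd.mul_const ‖x‖).mul (hd.add_const (2 * ‖f‖))
    filter_upwards [h1.eventually (eventually_le_nhds (half_pos hε)),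
      (tendsto_limNorm ω (star f * BoundedContinuousFunction.const ℕ x * f - seqMap ιA g)).eventually
        (eventually_le_nhds (show _ < ε / 2 by linarith))] with n hn hm
    refine ⟨g n, ?_⟩
    replace hm : ‖star (f n) * x * f n - ιA (g n)‖ ≤ ε / 2 := hm
    have hU' : ‖U n‖ ≤ ‖U n - f n‖ + ‖f‖ := by
      linarith [norm_le_insert' (U n) (f n), f.norm_coe_le_norm n]
    calc ‖star (U n) * x * U n - ιA (g n)‖
        = ‖(star (f n) * x * f n - ιA (g n)) +
            (star (U n - f n) * x * U n + star (f n) * x * (U n - f n))‖ := by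
          congr 1; rw [star_sub]; noncomm_ring
      _ ≤ ε / 2 + (‖U n - f n‖ * ‖x‖ * ‖U n‖ + ‖f n‖ * ‖x‖ * ‖U n - f n‖) := by
          refine (norm_add_le _ _).trans (add_le_add hm ((norm_add_le _ _).trans
            (add_le_add ?_ ?_))) <;>
          refine (norm_mul₃_le).trans (le_of_eq ?_) <;> rw [norm_star]
      _ ≤ ε := by
          nlinarith [norm_nonneg (U n - f n), norm_nonneg x, f.norm_coe_le_norm n,
            mul_nonneg (norm_nonneg (U n - f n)) (norm_nonneg x)]
  obtain ⟨n, hnF, hnG⟩ := (((eventually_all_finset F).2 fun a _ => hcA a).and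
    ((eventually_all_finset G).2 hcG)).exists
  exact ⟨U n, hU1 n, hnF, hnG⟩

end

end Vale.P101.ZS
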