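import Vale.Agent.P101.ZStab.Defs

/-!
# P101 `Z`-stability: faithful representations and the spatial tensor product

Every unital C⋆-algebra acts faithfully on a Hilbert sum of GNS spaces, and any two nontrivial
algebras have a spatial tensor product, generated by commuting copies of the factors.
-/

open scoped TensorProduct InnerProductSpace ComplexOrder
open UniformSpace

namespace Vale.P101.ZS.Rep

noncomputable section

attribute [local instance] CStarAlgebra.spectralOrder CStarAlgebra.spectralOrderedRing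

variable {A B : Type} [CStarAlgebra A] [CStarAlgebra B]

/-- A positive functional which is nonzero at a given nonzero positive element. -/
theorem exists_positive {x : A} (hx : 0 ≤ x) (hx0 : x ≠ 0) :
    ∃ f : A →ₚ[ℂ] ℂ, f x ≠ 0 := by
  have hcl : IsClosed {a : A | 0 ≤ a} := CStarAlgebra.isClosed_nonneg
  have hconv : Convex ℝ {a : A | 0 ≤ a} := convex_Ici 0
  have hnot : -x ∉ {a : A | 0 ≤ a} := fun h => hx0 (le_antisymm (neg_nonneg.1 h) hx)
  obtain ⟨l, u, hl, hu⟩ := geometric_hahn_banach_closed_point hconv hcl hnot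
  have hu0 : 0 < u := by simpa using hl 0 (le_refl (0 : A))
  have hle : ∀ a : A, 0 ≤ a → l a ≤ 0 := fun a ha => by
    by_contra h
    push Not at h
    have h2 := hl ((u / l a + 1) • a) (smul_nonneg (by positivity) ha)
    rw [map_smul, smul_eq_mul, add_mul, one_mul, div_mul_cancel₀ _ h.ne'] at h2
    linarith
  let h : Module.Dual ℝ A :=
    { toFun := fun y => -(l y + l (star y))
      map_add' := fun y z => by simp only [star_add, map_add]; ring
      map_smul' := fun c y => by
        simp only [star_smul, star_trivial, map_smul, smul_eq_mul, RingHom.id_apply]; ring }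
  have hreal : ∀ a : A, 0 ≤ a → h.extendRCLike (𝕜 := ℂ) a = ((-(2 * l a) : ℝ) : ℂ) := fun a ha => by
    have h1 : h a = -(2 * l a) := by
      show -(l a + l (star a)) = _
      rw [(IsSelfAdjoint.of_nonneg ha).star_eq]; ring
    have h2 : h (Complex.I • a) = 0 := by
      show -(l (Complex.I • a) + l (star (Complex.I • a))) = 0
      rw [star_smul, (IsSelfAdjoint.of_nonneg ha).star_eq]
      simp
    rw [Module.Dual.extendRCLike_apply, show (RCLike.I : ℂ) = Complex.I from rfl, h1, h2]
    simp
  refine ⟨{ toLinearMap := h.extendRCLike (𝕜 := ℂ), monotone' := fun a b hab => ?_ }, ?_⟩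
  · have h3 := hreal (b - a) (sub_nonneg.2 hab)
    rw [map_sub] at h3
    show h.extendRCLike (𝕜 := ℂ) a ≤ h.extendRCLike (𝕜 := ℂ) b
    rw [← sub_nonneg, h3, Complex.zero_le_real]
    linarith [hle _ (sub_nonneg.2 hab)]
  · show h.extendRCLike (𝕜 := ℂ) x ≠ 0
    rw [hreal x hx, Complex.ofReal_ne_zero]
    rw [map_neg] at hu
    intro h0
    linarith

/-- The index set of the Hilbert sum. -/
abbrev Idx (A : Type) [CStarAlgebra A] : Type := {x : A // x ≠ 0}

/-- The functional attached to a nonzero element. -/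
def fn (i : Idx A) : A →ₚ[ℂ] ℂ :=
  (exists_positive (star_mul_self_nonneg i.1)
    (fun h => i.2 ((CStarRing.star_mul_self_eq_zero_iff i.1).1 h))).choose

theorem fn_ne (i : Idx A) : fn i (star i.1 * i.1) ≠ 0 :=
  (exists_positive (star_mul_self_nonneg i.1)
    (fun h => i.2 ((CStarRing.star_mul_self_eq_zero_iff i.1).1 h))).choose_spec

/-- The Hilbert space of the sum of all the GNS representations. -/
abbrev Sp (A : Type) [CStarAlgebra A] : Type := lp (fun i : Idx A => (fn i).GNS) 2

theorem norm_repApply (i : Idx A) (a : A) : ‖(fn i).gnsStarAlgHom a‖ ≤ ‖a‖ :=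
  NonUnitalStarAlgHom.norm_apply_le _ a

theorem mem_act (a : A) (v : Sp A) :
    Memℓp (fun i => (fn i).gnsStarAlgHom a (v i)) 2 := by
  refine ((lp.memℓp v).const_smul (‖a‖ : ℂ)).mono' fun i => ?_
  rw [Pi.smul_apply, norm_smul, Complex.norm_real, norm_norm]
  exact (ContinuousLinearMap.le_opNorm _ _).trans
    (mul_le_mul_of_nonneg_right (norm_repApply i a) (norm_nonneg _))

/-- The action of one element. -/
def act (a : A) : Sp A →L[ℂ] Sp A :=
  LinearMap.mkContinuous
    { toFun := fun v => ⟨fun i => (fn i).gnsStarAlgHom a (v i), mem_act a v⟩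
      map_add' := fun v w => lp.ext (funext fun i => map_add _ (v i) (w i))
      map_smul' := fun c v => lp.ext (funext fun i => map_smul _ c (v i)) }
    ‖a‖ fun v => by
      refine (lp.norm_mono (y := (‖a‖ : ℂ) • v) (by norm_num) fun i => ?_).trans ?_
      · show ‖(fn i).gnsStarAlgHom a (v i)‖ ≤ ‖(‖a‖ : ℂ) • v i‖
        rw [norm_smul, Complex.norm_real, norm_norm]
        exact (ContinuousLinearMap.le_opNorm _ _).trans
          (mul_le_mul_of_nonneg_right (norm_repApply i a) (norm_nonneg _))
      · rw [norm_smul, Complex.norm_real, norm_norm]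

theorem act_apply (a : A) (v : Sp A) (i : Idx A) :
    act a v i = (fn i).gnsStarAlgHom a (v i) := rfl

/-- The faithful representation. -/
def rep : A →⋆ₐ[ℂ] (Sp A →L[ℂ] Sp A) where
  toFun := act
  map_one' := ContinuousLinearMap.ext fun v => lp.ext (funext fun i => by
    rw [act_apply, map_one]; rfl)
  map_mul' a b := ContinuousLinearMap.ext fun v => lp.ext (funext fun i => by
    rw [act_apply, map_mul]; rfl)
  map_zero' := ContinuousLinearMap.ext fun v => lp.ext (funext fun i => by
    rw [act_apply, map_zero]; rfl)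
  map_add' a b := ContinuousLinearMap.ext fun v => lp.ext (funext fun i => by
    rw [act_apply, map_add]; rfl)
  commutes' c := ContinuousLinearMap.ext fun v => lp.ext (funext fun i => by
    rw [act_apply, AlgHomClass.commutes, Algebra.algebraMap_eq_smul_one,
      Algebra.algebraMap_eq_smul_one]; rfl)
  map_star' a := by
    rw [ContinuousLinearMap.star_eq_adjoint]
    refine (ContinuousLinearMap.eq_adjoint_iff _ _).2 fun v w => ?_
    rw [lp.inner_eq_tsum, lp.inner_eq_tsum]
    refine tsum_congr fun i => ?_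
    rw [act_apply, act_apply, map_star, ContinuousLinearMap.star_eq_adjoint,
      ContinuousLinearMap.adjoint_inner_left]

theorem rep_injective : Function.Injective (rep (A := A)) := by
  classical
  rw [injective_iff_map_eq_zero]
  intro a ha
  by_contra hne
  set f := fn (⟨a, hne⟩ : Idx A)
  let v : f.GNS := ((f.toPreGNS 1 : f.PreGNS) : f.GNS)
  have h : f.gnsStarAlgHom a v = 0 := by
    have := congrArg (fun T : Sp A →L[ℂ] Sp A => T (lp.single 2 ⟨a, hne⟩ v) ⟨a, hne⟩) ha
    simpa [rep, act_apply, f] using this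
  have h2 : ‖f.toPreGNS a‖ = 0 := by
    have e : f.gnsStarAlgHom a v = ((f.toPreGNS a : f.PreGNS) : f.GNS) := by
      simp [v, PositiveLinearMap.leftMulMapPreGNS_apply]
    rw [← Completion.norm_coe, ← e, h, norm_zero]
  refine fn_ne ⟨a, hne⟩ ?_
  have := f.preGNS_norm_sq (f.toPreGNS a)
  rw [h2, PositiveLinearMap.ofPreGNS_toPreGNS] at this
  simpa using this.symm

/-! ## Operators on the Hilbert tensor product -/

variable {H K : Type} [NormedAddCommGroup H] [InnerProductSpace ℂ H] [CompleteSpace H]
  [NormedAddCommGroup K] [InnerProductSpace ℂ K] [CompleteSpace K]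

/-- The inclusion of the algebraic tensor product. -/
def emb (x : H ⊗[ℂ] K) : HTensor H K := (x : Completion (H ⊗[ℂ] K))

omit [CompleteSpace H] [CompleteSpace K] in
theorem emb_add (x y : H ⊗[ℂ] K) : emb (x + y) = emb x + emb y := Completion.coe_add x y

omit [CompleteSpace H] [CompleteSpace K] in
theorem emb_zero : emb (0 : H ⊗[ℂ] K) = 0 := Completion.coe_zero

omit [CompleteSpace H] [CompleteSpace K] in
theorem emb_smul (c : ℂ) (x : H ⊗[ℂ] K) : emb (c • x) = c • emb x := Completion.coe_smul c x

omit [CompleteSpace H] [CompleteSpace K] in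
theorem inner_emb (x y : H ⊗[ℂ] K) : ⟪emb x, emb y⟫_ℂ = ⟪x, y⟫_ℂ := Completion.inner_coe x y

omit [CompleteSpace H] [CompleteSpace K] in
theorem norm_emb (x : H ⊗[ℂ] K) : ‖emb x‖ = ‖x‖ := Completion.norm_coe x

omit [CompleteSpace H] [CompleteSpace K] in
theorem emb_dense : DenseRange (emb : H ⊗[ℂ] K → HTensor H K) := Completion.denseRange_coe

omit [CompleteSpace H] [CompleteSpace K] in
theorem ampLeft_emb (T : H →L[ℂ] H) (x : H ⊗[ℂ] K) :
    ampLeft (K := K) T (emb x) = emb (T.rTensor K x) :=
  ContinuousLinearMap.completion_apply_coe _ _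

omit [CompleteSpace H] [CompleteSpace K] in
theorem ampRight_emb (T : K →L[ℂ] K) (x : H ⊗[ℂ] K) :
    ampRight (H := H) T (emb x) = emb (T.lTensor H x) :=
  ContinuousLinearMap.completion_apply_coe _ _

omit [CompleteSpace H] [CompleteSpace K] in
/-- Operators on the completed tensor product agreeing on elementary tensors are equal. -/
theorem ext_tmul {S T : HTensor H K →L[ℂ] HTensor H K}
    (h : ∀ (x : H) (y : K), S (emb (x ⊗ₜ[ℂ] y)) = T (emb (x ⊗ₜ[ℂ] y))) : S = T := by
  refine ContinuousLinearMap.ext fun z => ?_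
  refine emb_dense.induction_on z (isClosed_eq S.continuous T.continuous) fun x => ?_
  induction x using TensorProduct.induction_on with
  | zero => rw [emb_zero, map_zero, map_zero]
  | tmul x y => exact h x y
  | add x y hx hy => rw [emb_add, map_add, map_add, hx, hy]

omit [CompleteSpace H] [CompleteSpace K] in
theorem amp_commute (S : H →L[ℂ] H) (T : K →L[ℂ] K) :
    Commute (ampLeft (K := K) S) (ampRight (H := H) T) := by
  refine ext_tmul fun x y => ?_
  show ampLeft (K := K) S (ampRight (H := H) T _) = ampRight (H := H) T (ampLeft (K := K) S _)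
  rw [ampRight_emb, ampLeft_emb, ampLeft_emb, ampRight_emb]
  simp

omit [CompleteSpace H] [CompleteSpace K] in
/-- A pair of operators adjoint on elementary tensors is adjoint. -/
theorem adjoint_tmul {S T : HTensor H K →L[ℂ] HTensor H K}
    (h : ∀ (a c : H) (b d : K), ⟪S (emb (a ⊗ₜ[ℂ] b)), emb (c ⊗ₜ[ℂ] d)⟫_ℂ =
      ⟪emb (a ⊗ₜ[ℂ] b), T (emb (c ⊗ₜ[ℂ] d))⟫_ℂ) (v w : HTensor H K) :
    ⟪S v, w⟫_ℂ = ⟪v, T w⟫_ℂ := by
  refine emb_dense.induction_on₂ (p := fun v w => ⟪S v, w⟫_ℂ = ⟪v, T w⟫_ℂ)
    (isClosed_eq (by fun_prop) (by fun_prop)) (fun x y => ?_) v w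
  induction x using TensorProduct.induction_on with
  | zero => simp [emb_zero]
  | tmul a b =>
    induction y using TensorProduct.induction_on with
    | zero => simp [emb_zero]
    | tmul c d => exact h a c b d
    | add u u' hu hu' => simp only [emb_add, map_add, inner_add_right, hu, hu']
  | add u u' hu hu' => simp only [emb_add, map_add, inner_add_left, hu, hu']

/-- `T ↦ T ⊗ 1`. -/
def left : (H →L[ℂ] H) →⋆ₐ[ℂ] (HTensor H K →L[ℂ] HTensor H K) where
  toFun := ampLeft
  map_one' := ext_tmul fun x y => by rw [ampLeft_emb]; simp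
  map_mul' S T := ext_tmul fun x y => by
    show _ = ampLeft (K := K) S (ampLeft (K := K) T _)
    rw [ampLeft_emb, ampLeft_emb, ampLeft_emb]; simp
  map_zero' := ext_tmul fun x y => by rw [ampLeft_emb]; simp [emb_zero]
  map_add' S T := ext_tmul fun x y => by
    show _ = ampLeft (K := K) S _ + ampLeft (K := K) T _
    rw [ampLeft_emb, ampLeft_emb, ampLeft_emb, ← emb_add]; simp
  commutes' c := ext_tmul fun x y => by
    rw [ampLeft_emb, Algebra.algebraMap_eq_smul_one, Algebra.algebraMap_eq_smul_one]
    simp [emb_smul]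
  map_star' T := by
    rw [ContinuousLinearMap.star_eq_adjoint]
    refine (ContinuousLinearMap.eq_adjoint_iff _ _).2 (adjoint_tmul fun a c b d => ?_)
    rw [ampLeft_emb, ampLeft_emb, inner_emb, inner_emb]
    simp [ContinuousLinearMap.adjoint_inner_left]

/-- `T ↦ 1 ⊗ T`. -/
def right : (K →L[ℂ] K) →⋆ₐ[ℂ] (HTensor H K →L[ℂ] HTensor H K) where
  toFun := ampRight
  map_one' := ext_tmul fun x y => by rw [ampRight_emb]; simp
  map_mul' S T := ext_tmul fun x y => by
    show _ = ampRight (H := H) S (ampRight (H := H) T _)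
    rw [ampRight_emb, ampRight_emb, ampRight_emb]; simp
  map_zero' := ext_tmul fun x y => by rw [ampRight_emb]; simp [emb_zero]
  map_add' S T := ext_tmul fun x y => by
    show _ = ampRight (H := H) S _ + ampRight (H := H) T _
    rw [ampRight_emb, ampRight_emb, ampRight_emb, ← emb_add]; simp
  commutes' c := ext_tmul fun x y => by
    rw [ampRight_emb, Algebra.algebraMap_eq_smul_one, Algebra.algebraMap_eq_smul_one]
    simp [emb_smul]
  map_star' T := by
    rw [ContinuousLinearMap.star_eq_adjoint]
    refine (ContinuousLinearMap.eq_adjoint_iff _ _).2 (adjoint_tmul fun a c b d => ?_)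
    rw [ampRight_emb, ampRight_emb, inner_emb, inner_emb]
    simp [ContinuousLinearMap.adjoint_inner_left]

omit [CompleteSpace K] in
theorem left_injective [Nontrivial K] : Function.Injective (left (H := H) (K := K)) := by
  rw [injective_iff_map_eq_zero]
  intro T hT
  obtain ⟨y, hy⟩ := exists_ne (0 : K)
  refine ContinuousLinearMap.ext fun x => ?_
  have h : ampLeft (K := K) T (emb (x ⊗ₜ[ℂ] y)) = 0 :=
    congrArg (fun S : HTensor H K →L[ℂ] HTensor H K => S (emb (x ⊗ₜ[ℂ] y))) hT
  rw [ampLeft_emb] at h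
  have h' := norm_eq_zero.2 h
  rw [norm_emb, ContinuousLinearMap.rTensor_tmul, TensorProduct.norm_tmul] at h'
  simpa [hy] using h'

/-- Two commuting homomorphisms land in the C⋆-algebra they generate. -/
theorem exists_generated {E : Type} [CStarAlgebra E] (f : A →⋆ₐ[ℂ] E) (g : B →⋆ₐ[ℂ] E)
    (hf : Function.Injective f) (hfg : ∀ a b, Commute (f a) (g b)) :
    ∃ (R : Type) (_ : CStarAlgebra R) (ιA : A →⋆ₐ[ℂ] R) (ιB : B →⋆ₐ[ℂ] R),
      Function.Injective ιA ∧ (∀ a b, Commute (ιA a) (ιB b)) ∧
      Dense ((StarAlgebra.adjoin ℂ (Set.range ιA ∪ Set.range ιB) : StarSubalgebra ℂ R) : Set R) ∧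
      Nonempty (R ≃⋆ₐ[ℂ]
        (StarAlgebra.adjoin ℂ (Set.range f ∪ Set.range g)).topologicalClosure) := by
  set S := (StarAlgebra.adjoin ℂ (Set.range f ∪ Set.range g)).topologicalClosure with hS
  have hcl : IsClosed (S : Set E) := StarSubalgebra.isClosed_topologicalClosure _
  have hA : ∀ a, f a ∈ S := fun a =>
    StarSubalgebra.le_topologicalClosure _ (StarAlgebra.subset_adjoin ℂ _ (Or.inl ⟨a, rfl⟩))
  have hB : ∀ b, g b ∈ S := fun b =>
    StarSubalgebra.le_topologicalClosure _ (StarAlgebra.subset_adjoin ℂ _ (Or.inr ⟨b, rfl⟩))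
  refine ⟨S, StarSubalgebra.cstarAlgebra S (h_closed := hcl), f.codRestrict S hA,
    g.codRestrict S hB, fun a a' h => hf (congrArg Subtype.val h),
    fun a b => Subtype.ext (hfg a b).eq, ?_, ⟨StarAlgEquiv.refl ℂ S⟩⟩
  rw [Subtype.dense_iff]
  intro z hz
  have e : Subtype.val '' ((StarAlgebra.adjoin ℂ (Set.range (f.codRestrict S hA) ∪
      Set.range (g.codRestrict S hB)) : StarSubalgebra ℂ S) : Set S) =
      (StarAlgebra.adjoin ℂ (Set.range f ∪ Set.range g) : StarSubalgebra ℂ E) := by
    show S.subtype '' _ = _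
    rw [← StarSubalgebra.coe_map, StarAlgHom.map_adjoin, Set.image_union, ← Set.range_comp,
      ← Set.range_comp]
    rfl
  exact (Set.ext_iff.1 (congrArg closure e) z).2 hz

/-- Any two nontrivial algebras have a spatial tensor product. -/
theorem exists_spatial (A B : Type) [CStarAlgebra A] [CStarAlgebra B] [Nontrivial A]
    [Nontrivial B] :
    ∃ (R : Type) (_ : CStarAlgebra R) (ιA : A →⋆ₐ[ℂ] R) (ιB : B →⋆ₐ[ℂ] R),
      Function.Injective ιA ∧ (∀ a b, Commute (ιA a) (ιB b)) ∧
      Dense ((StarAlgebra.adjoin ℂ (Set.range ιA ∪ Set.range ιB) : StarSubalgebra ℂ R) : Set R) ∧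
      IsSpatialTensor R A B := by
  have hK : Nontrivial (Sp B) := by
    by_contra hK
    rw [not_nontrivial_iff_subsingleton] at hK
    exact not_subsingleton B ((rep_injective (A := B)).subsingleton)
  obtain ⟨R, iR, ιA, ιB, h1, h2, h3, ⟨e⟩⟩ := exists_generated
    ((left (H := Sp A) (K := Sp B)).comp rep) ((right (H := Sp A) (K := Sp B)).comp rep)
    (left_injective.comp rep_injective) (fun a b => amp_commute (rep a) (rep b))
  exact ⟨R, iR, ιA, ιB, h1, h2, h3, Sp A, Sp B, inferInstance, inferInstance, inferInstance,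
    inferInstance, inferInstance, inferInstance, rep, rep, rep_injective, rep_injective, ⟨e⟩⟩

end

end Vale.P101.ZS.Rep
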